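import Vale.Agent.P159.XY.Main

/-! Critical square-lattice XY model: the correlation length diverges strictly faster than
mean field. -/

namespace Vale.Agent.Results.P159.BeyondMeanField

open Filter Vale.Agent.P159
open scoped Topology

/-- For the nearest-neighbour XY model on `ℤ²` with free boundary: the limits defining `C_b` and
`m` exist; below every `β` the mass cannot vanish within `(m / 512) ^ (1 / ν)` of a massive `b`,
for some `ν > 1/2`; if the mass vanishes somewhere then `m(b_c) = 0`, `b_c ≥ 1/8`, the susceptibility at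
`b ≤ b_c` is at least `1 / (8 (b_c - b))` (infinite at `b_c`), and for some `ν > 1/2`,
`ξ(b) ≥ c (b_c - b) ^ (-ν)` below `b_c`. -/
theorem result :
    (∀ b : ℝ, 0 < b →
      (∀ r : ℕ, Tendsto (fun R => corr R b (0, 0) ((r : ℤ), 0)) atTop (𝓝 (C b r))) ∧
      Tendsto (fun r : ℕ => -(1 / (r : ℝ)) * Real.log (C b r)) atTop (𝓝 (m b))) ∧
    (∀ b : ℝ, 0 < b → b < 1 / 8 → 0 < m b) ∧
    (∀ β : ℝ, 0 < β → ∃ ν : ℝ, 1 / 2 < ν ∧ ∀ b b' : ℝ, 0 < b → b ≤ b' → b' ≤ β →
      b' - b ≤ 1 / 512 → 512 * (b' - b) ^ ν < m b → 0 < m b') ∧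
    (massless.Nonempty →
      1 / 8 ≤ bc ∧ m bc = 0 ∧
      (∀ b : ℝ, 0 < b → b < bc → 0 < m b) ∧
      (∀ b K : ℝ, 0 ≤ b → b ≤ bc → 8 * (bc - b) * K < 1 →
        ∃ R, K < ∑ x ∈ box R, corr R b (0, 0) x) ∧
      ∃ ν : ℝ, 1 / 2 < ν ∧ ∃ c : ℝ, 0 < c ∧ ∃ δ : ℝ, 0 < δ ∧
        ∀ b : ℝ, 0 < b → bc - δ < b → b < bc →
          c * (bc - b) ^ (-ν) ≤ ξ b ∧
          ν * Real.log (1 / (bc - b)) + Real.log c ≤ Real.log (ξ b)) := by
  refine ⟨fun b hb => ⟨fun r => XY.tendsto_corr_C hb.le r, XY.tendsto_m hb⟩,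
    fun b hb hb8 => XY.m_pos_small hb hb8, fun β hβ => ⟨1 / (2 - XY.eta β / 4), ?_,
      fun b b' hb hle hle' hd hm => XY.massive_near hb hle hle' hd hm⟩, fun hne => ?_⟩
  · have := XY.eta_pos hβ
    have := XY.eta_le (b := β)
    exact one_div_lt_one_div_of_lt (by linarith) (by linarith)
  have hbc := XY.bc_mem hne
  refine ⟨XY.bc_ge hne, hbc.2, fun b hb hlt => XY.m_pos_below hb hlt,
    fun b K hb hle hK => XY.chiBox_large hb hle hbc.2 hbc.1 hK, ?_⟩
  have h1 := XY.eta_pos hbc.1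
  have h2 := XY.eta_le (b := bc)
  refine ⟨1 / (2 - XY.eta bc / 4), ?_,
    (1 / 4) * (128 : ℝ) ^ (-(1 / (2 - XY.eta bc / 4))), by positivity, 1 / 512, by norm_num,
    fun b hb hnear hlt => ?_⟩
  · exact one_div_lt_one_div_of_lt (by linarith) (by linarith)
  have hd : 0 < bc - b := sub_pos.mpr hlt
  have h := XY.xi_lower hb hlt hbc.2 (XY.m_pos_below hb hlt) (by linarith)
  refine ⟨h, ?_⟩
  have h3 := Real.log_le_log (by positivity) h
  rw [Real.log_mul (by positivity) (by positivity), Real.log_rpow hd] at h3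
  rw [one_div (bc - b), Real.log_inv]
  linarith

end Vale.Agent.Results.P159.BeyondMeanField
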